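import Vale.Agent.P267.H456.Fin
import Vale.Agent.P267.H770.Final.Bridge

/-!
# P267: every minimal surface of class VII with `b₂ = n > 0` contains `n` distinct rational curves
-/

theorem Vale.Agent.Results.P267.Curves.result : Vale.Agent.P267.Final.CurvesStatement :=
  Vale.Agent.P267.Final.curves_of Vale.Agent.P267.Asm.curvesStatement
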