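import Vale.Agent.P267.H456.Gss
import Vale.Agent.P267.H205.OrdFinal
import Vale.Agent.P267.H770.Final.Bridge

/-!
# P267: the global spherical shell conjecture

Every minimal compact complex surface of class VII with `b₂ > 0` contains a global spherical shell.
-/

theorem Vale.Agent.Results.P267.GSS.result : Vale.Agent.P267.Final.GSSConjecture :=
  Vale.Agent.P267.Final.gss_of
    (Vale.Agent.P267.Asm.gss_of_ord Vale.Agent.P267.H205.ordThm)
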